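import Vale.Agent.P219.Relax.Poly.Bernstein

/-!
# The check in one bitwise test

With half the base added at every place each digit is the coefficient plus half the base, and it is
nonnegative exactly when the top bit of the digit is set. One conjunction with the mask of the top
bits replaces the loop over the digits.
-/

namespace Vale.Agent.P219.Poly

namespace E

/-- The sum of the first powers of the base, by halving. -/
def rep (b : ℕ) : ℕ → ℕ → ℕ
  | 0, _ => 0
  | f + 1, n =>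
    rep b f (n / 2) * (1 + 2 ^ (b * (n / 2))) + if n % 2 = 1 then 2 ^ (b * (n - 1)) else 0

lemma rep_eq (b : ℕ) : ∀ f n : ℕ, n < 2 ^ f →
    rep b f n = ∑ i ∈ Finset.range n, (2 ^ b) ^ i
  | 0, n, h => by
    obtain rfl : n = 0 := by simpa using h
    simp [rep]
  | f + 1, n, h => by
    obtain ⟨k, hk⟩ : ∃ k, k = n / 2 := ⟨_, rfl⟩
    have ih := rep_eq b f k (by rw [pow_succ] at h; omega)
    have hh : ∑ i ∈ Finset.range (k + k), (2 ^ b : ℕ) ^ i =
        (∑ i ∈ Finset.range k, (2 ^ b) ^ i) * (1 + 2 ^ (b * k)) := by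
      rw [Finset.sum_range_add, mul_add, mul_one, Finset.sum_mul, pow_mul]
      congr 1
      exact Finset.sum_congr rfl fun i _ => by rw [pow_add, mul_comm]
    rw [rep, ← hk, ih, ← hh]
    split_ifs with hodd
    · rw [show n = k + k + 1 by omega, Finset.sum_range_succ, show k + k + 1 - 1 = k + k by omega,
        ← pow_mul]
    · rw [show n = k + k by omega, add_zero]

/-- The number of places. -/
def places (p : E) : ℕ := (deg p 0 + 1) * (deg p 1 + 1) * (deg p 2 + 1)

/-- All coefficients of the homogenised form are nonnegative, by one bitwise test. -/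
def check2 (p : E) : Bool :=
  let b := bits p
  let r := rep b (Nat.log2 (places p) + 1) (places p)
  let M := 2 ^ (b - 1) * r
  let z := hom (fun i => ((2 ^ (b * pts p i) : ℕ) : ℤ)) (fun _ => 1) p + (M : ℤ)
  decide (0 ≤ z) && Nat.ble z.toNat ((2 ^ b - 1) * r) && Nat.beq (z.toNat &&& M) M

lemma lowDigits_of_land {b : ℕ} : ∀ (n : ℕ) (z : ℤ) (a : ℕ),
    a ≤ (2 ^ (b + 1) - 1) * ∑ i ∈ Finset.range n, (2 ^ (b + 1)) ^ i →
    z = (a : ℤ) - (2 ^ b * ∑ i ∈ Finset.range n, (2 ^ (b + 1)) ^ i : ℕ) →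
    a &&& (2 ^ b * ∑ i ∈ Finset.range n, (2 ^ (b + 1)) ^ i) =
      2 ^ b * ∑ i ∈ Finset.range n, (2 ^ (b + 1)) ^ i →
    lowDigits ((2 ^ (b + 1) : ℕ) : ℤ) ((2 ^ b : ℕ) : ℤ) n z = true
  | 0, _, _, _, _, _ => rfl
  | n + 1, z, a, hle, hz, hand => by
    obtain ⟨B, hB⟩ : ∃ B, B = 2 ^ (b + 1) := ⟨_, rfl⟩
    obtain ⟨S, hS⟩ : ∃ S, S = ∑ i ∈ Finset.range n, B ^ i := ⟨_, rfl⟩
    have hsum : ∑ i ∈ Finset.range (n + 1), (2 ^ (b + 1)) ^ i = 1 + B * S := by
      rw [← hB, Finset.sum_range_succ', pow_zero, add_comm, hS, Finset.mul_sum]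
      simp only [pow_succ']
    rw [hsum, ← hB] at hle
    rw [hsum] at hz hand
    have hhB : 2 * 2 ^ b = B := by rw [hB, pow_succ']
    have hpos : 0 < 2 ^ b := Nat.two_pow_pos b
    have hMmod : 2 ^ b * (1 + B * S) % 2 ^ (b + 1) = 2 ^ b := by
      rw [← hB, Nat.mul_add, mul_one, Nat.mul_left_comm, Nat.add_mul_mod_self_left,
        Nat.mod_eq_of_lt (by omega)]
    have hMdiv : 2 ^ b * (1 + B * S) / 2 ^ (b + 1) = 2 ^ b * S := by
      rw [← hB, Nat.mul_add, mul_one, Nat.mul_left_comm, Nat.add_mul_div_left _ _ (by omega),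
        Nat.div_eq_of_lt (by omega), zero_add]
    have hlow : 2 ^ b ≤ a % B := by
      have h := congrArg (· % 2 ^ (b + 1)) hand
      simp only [Nat.and_mod_two_pow, hMmod] at h
      rw [hB, ← h]
      exact Nat.and_le_left
    have hhigh : a / B &&& 2 ^ b * S = 2 ^ b * S := by
      have h := congrArg (· >>> (b + 1)) hand
      simp only [Nat.shiftRight_and_distrib] at h
      simp only [Nat.shiftRight_eq_div_pow, hMdiv] at h
      rwa [hB]
    have hlt : a % B < B := Nat.mod_lt _ (by omega)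
    have ha := Nat.div_add_mod a B
    have hz' : z = ((a % B : ℕ) : ℤ) - (2 ^ b : ℕ) +
        ((a / B : ℕ) - ((2 ^ b * S : ℕ) : ℤ)) * (B : ℤ) := by
      have ha' : ((B : ℤ) * (a / B : ℕ) + (a % B : ℕ)) = (a : ℤ) := by exact_mod_cast ha
      rw [hz, ← ha']
      push_cast
      ring
    have hb0 : (B : ℤ) ≠ 0 := by exact_mod_cast (show B ≠ 0 by omega)
    have h0 : (0 : ℤ) ≤ ((a % B : ℕ) : ℤ) - (2 ^ b : ℕ) := sub_nonneg.2 (by exact_mod_cast hlow)
    have h1 : ((a % B : ℕ) : ℤ) - (2 ^ b : ℕ) < (2 ^ b : ℕ) := by omega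
    rw [lowDigits, ← hB, Bool.and_eq_true, decide_eq_true_eq, hz']
    refine ⟨?_, ?_⟩
    · rw [Int.add_mul_emod_self_right, Int.emod_eq_of_lt h0 (by omega)]
      exact h1
    · rw [Int.add_mul_ediv_right _ _ hb0, Int.ediv_eq_zero_of_lt h0 (by omega), zero_add, hB]
      refine lowDigits_of_land n _ (a / B) ?_ ?_ ?_
      · rw [← hB, ← hS]
        refine Nat.lt_succ_iff.1 ((Nat.div_lt_iff_lt_mul (by omega)).2 ?_)
        have e : (B - 1) * (1 + B * S) = (B - 1) + (B - 1) * S * B := by ring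
        rw [Nat.succ_mul]
        omega
      · rw [← hB, ← hS]
      · rw [← hB, ← hS]
        exact hhigh

theorem check_of_check2 {p : E} (h : check2 p = true) : check p = true := by
  simp only [check2, Bool.and_eq_true, decide_eq_true_eq] at h
  obtain ⟨⟨hz, hle⟩, hand⟩ := h
  have hle := Nat.le_of_ble_eq_true hle
  have hand := Nat.eq_of_beq_eq_true hand
  rw [rep_eq _ _ _ Nat.lt_log2_self] at hle hand
  obtain ⟨c, hc⟩ : ∃ c, bits p = c + 1 := ⟨_, rfl⟩
  rw [hc, Nat.add_sub_cancel] at hle hand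
  rw [check, hc, Nat.add_sub_cancel]
  refine lowDigits_of_land _ _ _ hle ?_ hand
  rw [Int.toNat_of_nonneg]
  · simp [places]
  · simpa [hc, rep_eq _ _ _ Nat.lt_log2_self] using hz

/-- Nonnegativity on the cube, from the fast check. -/
theorem sem_nonneg2 {p : E} (h : check2 p = true) {v : Fin 3 → ℝ}
    (hv : ∀ i, v i ∈ Set.Icc (0 : ℝ) 1) : 0 ≤ sem v p :=
  sem_nonneg (check_of_check2 h) hv

end E

end Vale.Agent.P219.Poly
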