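import Mathlib

/-!
# Nonnegativity on the unit cube from one big number

A polynomial expression in three variables `x` and their complements `1 - x` is homogenised in
each pair. If every coefficient of the homogenised form is nonnegative (this is nonnegativity of
all Bernstein coefficients), the expression is nonnegative on the unit cube. All coefficients are
read off at once from the value at powers of a large base, so the check is one `decide`.
-/

open MvPolynomial

namespace Vale.Agent.P219.Poly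

/-- Expressions in `x i` and `1 - x i`. -/
inductive E where
  | k (z : ℤ)
  | x (i : Fin 3)
  | bar (i : Fin 3)
  | neg (p : E)
  | add (p q : E)
  | mul (p q : E)
  | pow (p : E) (n : ℕ)
  deriving Inhabited

namespace E

variable {R S : Type*} [CommRing R] [CommRing S]

/-- The meaning. -/
def sem (v : Fin 3 → R) : E → R
  | .k z => z
  | .x i => v i
  | .bar i => 1 - v i
  | .neg p => -sem v p
  | .add p q => sem v p + sem v q
  | .mul p q => sem v p * sem v q
  | .pow p n => sem v p ^ n

/-- The degree in each pair. -/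
def deg : E → Fin 3 → ℕ
  | .k _, _ => 0
  | .x i, j => if i = j then 1 else 0
  | .bar i, j => if i = j then 1 else 0
  | .neg p, j => deg p j
  | .add p q, j => max (deg p j) (deg q j)
  | .mul p q, j => deg p j + deg q j
  | .pow p n, j => n * deg p j

/-- The padding of a summand. -/
def pad (a b : Fin 3 → R) (D d : Fin 3 → ℕ) : R :=
  (a 0 + b 0) ^ (D 0 - d 0) * (a 1 + b 1) ^ (D 1 - d 1) * (a 2 + b 2) ^ (D 2 - d 2)

/-- The homogenised form. -/
def hom (a b : Fin 3 → R) : E → R
  | .k z => z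
  | .x i => a i
  | .bar i => b i
  | .neg p => -hom a b p
  | .add p q => hom a b p * pad a b (deg (.add p q)) (deg p) +
      hom a b q * pad a b (deg (.add p q)) (deg q)
  | .mul p q => hom a b p * hom a b q
  | .pow p n => hom a b p ^ n

/-- A bound of the absolute sum of the coefficients of the homogenised form. -/
def bnd : E → ℕ
  | .k z => z.natAbs
  | .x _ => 1
  | .bar _ => 1
  | .neg p => bnd p
  | .add p q =>
      let D := deg (.add p q)
      bnd p * (2 ^ (D 0 - deg p 0) * 2 ^ (D 1 - deg p 1) * 2 ^ (D 2 - deg p 2)) +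
        bnd q * (2 ^ (D 0 - deg q 0) * 2 ^ (D 1 - deg q 1) * 2 ^ (D 2 - deg q 2))
  | .mul p q => bnd p * bnd q
  | .pow p n => bnd p ^ n

lemma sem_eq_hom (v : Fin 3 → R) : ∀ p : E, sem v p = hom v (fun i => 1 - v i) p
  | .k _ => rfl
  | .x _ => rfl
  | .bar _ => rfl
  | .neg p => by rw [sem, hom, sem_eq_hom v p]
  | .add p q => by
      rw [sem, hom, sem_eq_hom v p, sem_eq_hom v q]
      simp [pad]
  | .mul p q => by rw [sem, hom, sem_eq_hom v p, sem_eq_hom v q]
  | .pow p n => by rw [sem, hom, sem_eq_hom v p]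

lemma map_hom (f : R →+* S) (a b : Fin 3 → R) :
    ∀ p : E, f (hom a b p) = hom (fun i => f (a i)) (fun i => f (b i)) p
  | .k z => map_intCast f z
  | .x _ => rfl
  | .bar _ => rfl
  | .neg p => by rw [hom, hom, map_neg, map_hom f a b p]
  | .add p q => by
      rw [hom, hom, map_add, map_mul, map_mul, map_hom f a b p, map_hom f a b q]
      simp [pad]
  | .mul p q => by rw [hom, hom, map_mul, map_hom f a b p, map_hom f a b q]
  | .pow p n => by rw [hom, hom, map_pow, map_hom f a b p]

lemma hom_smul (l a b : Fin 3 → R) : ∀ p : E,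
    hom (fun i => l i * a i) (fun i => l i * b i) p =
      l 0 ^ deg p 0 * l 1 ^ deg p 1 * l 2 ^ deg p 2 * hom a b p
  | .k z => by simp [hom, deg]
  | .x i => by fin_cases i <;> simp [hom, deg]
  | .bar i => by fin_cases i <;> simp [hom, deg]
  | .neg p => by
      rw [hom, hom, hom_smul l a b p]
      simp [deg]
  | .add p q => by
      rw [hom, hom, hom_smul l a b p, hom_smul l a b q]
      have h : ∀ (i : Fin 3) (d D : ℕ), d ≤ D →
          l i ^ d * (l i * a i + l i * b i) ^ (D - d) = l i ^ D * (a i + b i) ^ (D - d) := by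
        intro i d D hd
        rw [← mul_add, mul_pow, ← mul_assoc, ← pow_add, Nat.add_sub_cancel' hd]
      have hp0 := h 0 _ (deg (.add p q) 0) (le_max_left (deg p 0) (deg q 0))
      have hp1 := h 1 _ (deg (.add p q) 1) (le_max_left (deg p 1) (deg q 1))
      have hp2 := h 2 _ (deg (.add p q) 2) (le_max_left (deg p 2) (deg q 2))
      have hq0 := h 0 _ (deg (.add p q) 0) (le_max_right (deg p 0) (deg q 0))
      have hq1 := h 1 _ (deg (.add p q) 1) (le_max_right (deg p 1) (deg q 1))
      have hq2 := h 2 _ (deg (.add p q) 2) (le_max_right (deg p 2) (deg q 2))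
      simp only [pad, mul_add]
      congr 1
      · calc _ = hom a b p * ((l 0 ^ deg p 0 * (l 0 * a 0 + l 0 * b 0) ^ (deg (.add p q) 0 - deg p 0)) *
              (l 1 ^ deg p 1 * (l 1 * a 1 + l 1 * b 1) ^ (deg (.add p q) 1 - deg p 1)) *
              (l 2 ^ deg p 2 * (l 2 * a 2 + l 2 * b 2) ^ (deg (.add p q) 2 - deg p 2))) := by ring
          _ = _ := by rw [hp0, hp1, hp2]; ring
      · calc _ = hom a b q * ((l 0 ^ deg q 0 * (l 0 * a 0 + l 0 * b 0) ^ (deg (.add p q) 0 - deg q 0)) *
              (l 1 ^ deg q 1 * (l 1 * a 1 + l 1 * b 1) ^ (deg (.add p q) 1 - deg q 1)) *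
              (l 2 ^ deg q 2 * (l 2 * a 2 + l 2 * b 2) ^ (deg (.add p q) 2 - deg q 2))) := by ring
          _ = _ := by rw [hq0, hq1, hq2]; ring
  | .mul p q => by
      rw [hom, hom, hom_smul l a b p, hom_smul l a b q]
      simp only [deg, pow_add]
      ring
  | .pow p n => by
      rw [hom, hom, hom_smul l a b p, mul_pow, mul_pow, mul_pow]
      simp only [deg, ← pow_mul, mul_comm n]

/-! ## The homogenised form as a polynomial -/

/-- The homogenised form with the complements set to one. -/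
noncomputable def poly (p : E) : MvPolynomial (Fin 3) ℤ := hom X (fun _ => 1) p

/-- The absolute sum of the coefficients. -/
noncomputable def nrm (P : MvPolynomial (Fin 3) ℤ) : ℕ := ∑ m ∈ P.support, (coeff m P).natAbs

lemma nrm_le_sum {P : MvPolynomial (Fin 3) ℤ} {s : Finset (Fin 3 →₀ ℕ)} (h : P.support ⊆ s) :
    nrm P ≤ ∑ m ∈ s, (coeff m P).natAbs := Finset.sum_le_sum_of_subset h

lemma natAbs_coeff_le (P : MvPolynomial (Fin 3) ℤ) (m : Fin 3 →₀ ℕ) :
    (coeff m P).natAbs ≤ nrm P := by
  by_cases h : m ∈ P.support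
  · exact Finset.single_le_sum (f := fun m => (coeff m P).natAbs) (fun _ _ => Nat.zero_le _) h
  · simp [notMem_support_iff.1 h]

lemma nrm_add (P Q : MvPolynomial (Fin 3) ℤ) : nrm (P + Q) ≤ nrm P + nrm Q := by
  classical
  have hP : nrm P = ∑ m ∈ P.support ∪ Q.support, (coeff m P).natAbs :=
    Finset.sum_subset Finset.subset_union_left fun m _ h => by simp [notMem_support_iff.1 h]
  have hQ : nrm Q = ∑ m ∈ P.support ∪ Q.support, (coeff m Q).natAbs :=
    Finset.sum_subset Finset.subset_union_right fun m _ h => by simp [notMem_support_iff.1 h]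
  rw [hP, hQ, ← Finset.sum_add_distrib]
  exact (nrm_le_sum support_add).trans
    (Finset.sum_le_sum fun m _ => by rw [coeff_add]; exact Int.natAbs_add_le _ _)

lemma nrm_monomial (m : Fin 3 →₀ ℕ) (z : ℤ) : nrm (monomial m z) ≤ z.natAbs := by
  classical
  refine (nrm_le_sum support_monomial_subset).trans ?_
  simp

lemma nrm_sum {ι : Type*} (s : Finset ι) (f : ι → MvPolynomial (Fin 3) ℤ) :
    nrm (∑ i ∈ s, f i) ≤ ∑ i ∈ s, nrm (f i) := by
  classical
  induction s using Finset.induction_on with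
  | empty => simp [nrm]
  | insert i s hi ih =>
      rw [Finset.sum_insert hi, Finset.sum_insert hi]
      exact (nrm_add _ _).trans (Nat.add_le_add_left ih _)

lemma nrm_mul (P Q : MvPolynomial (Fin 3) ℤ) : nrm (P * Q) ≤ nrm P * nrm Q := by
  conv_lhs => rw [P.as_sum, Q.as_sum, Finset.sum_mul_sum]
  refine (nrm_sum _ _).trans ?_
  rw [nrm, nrm, Finset.sum_mul_sum]
  refine Finset.sum_le_sum fun i _ => (nrm_sum _ _).trans (Finset.sum_le_sum fun j _ => ?_)
  rw [monomial_mul, ← Int.natAbs_mul]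
  exact nrm_monomial _ _

lemma nrm_one : nrm (1 : MvPolynomial (Fin 3) ℤ) ≤ 1 := by
  simpa using nrm_monomial (0 : Fin 3 →₀ ℕ) 1

lemma nrm_pow (P : MvPolynomial (Fin 3) ℤ) : ∀ n : ℕ, nrm (P ^ n) ≤ nrm P ^ n
  | 0 => by simpa using nrm_one
  | n + 1 => by
      rw [pow_succ, pow_succ]
      exact (nrm_mul _ _).trans (Nat.mul_le_mul_right _ (nrm_pow P n))

lemma nrm_X_add_one (i : Fin 3) : nrm (X i + 1) ≤ 2 :=
  (nrm_add _ _).trans (Nat.add_le_add (nrm_monomial _ _) nrm_one)

lemma nrm_pad (D d : Fin 3 → ℕ) :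
    nrm (pad X (fun _ => (1 : MvPolynomial (Fin 3) ℤ)) D d) ≤
      2 ^ (D 0 - d 0) * 2 ^ (D 1 - d 1) * 2 ^ (D 2 - d 2) := by
  have h : ∀ (i : Fin 3) (n : ℕ), nrm ((X i + 1) ^ n) ≤ 2 ^ n := fun i n =>
    (nrm_pow _ n).trans (Nat.pow_le_pow_left (nrm_X_add_one i) n)
  exact (nrm_mul _ _).trans (Nat.mul_le_mul
    ((nrm_mul _ _).trans (Nat.mul_le_mul (h 0 _) (h 1 _))) (h 2 _))

lemma nrm_poly : ∀ p : E, nrm (poly p) ≤ bnd p
  | .k z => by
      rw [poly, hom, ← map_intCast (C : ℤ →+* MvPolynomial (Fin 3) ℤ) z]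
      simpa [C_apply, bnd] using nrm_monomial (0 : Fin 3 →₀ ℕ) z
  | .x i => nrm_monomial _ _
  | .bar _ => nrm_one
  | .neg p => by
      have h := nrm_poly p
      rw [poly, hom, bnd]
      simpa [nrm, poly] using h
  | .add p q => (nrm_add _ _).trans (Nat.add_le_add
      ((nrm_mul _ _).trans (Nat.mul_le_mul (nrm_poly p) (nrm_pad _ _)))
      ((nrm_mul _ _).trans (Nat.mul_le_mul (nrm_poly q) (nrm_pad _ _))))
  | .mul p q => (nrm_mul _ _).trans (Nat.mul_le_mul (nrm_poly p) (nrm_poly q))
  | .pow p n => (nrm_pow _ n).trans (Nat.pow_le_pow_left (nrm_poly p) n)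

lemma degreeOf_pad (j : Fin 3) (D d : Fin 3 → ℕ) :
    degreeOf j (pad X (fun _ => (1 : MvPolynomial (Fin 3) ℤ)) D d) ≤ D j - d j := by
  classical
  have h : ∀ (i : Fin 3) (n : ℕ),
      degreeOf j ((X i + 1 : MvPolynomial (Fin 3) ℤ) ^ n) ≤ if j = i then n else 0 := by
    intro i n
    refine (degreeOf_pow_le _ _ _).trans ?_
    have : degreeOf j (X i + 1 : MvPolynomial (Fin 3) ℤ) ≤ if j = i then 1 else 0 := by
      refine (degreeOf_add_le _ _ _).trans ?_
      rw [degreeOf_X, ← map_one C, degreeOf_C]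
      simp
    calc n * _ ≤ n * (if j = i then 1 else 0) := Nat.mul_le_mul_left n this
      _ = _ := by split_ifs <;> simp
  refine (degreeOf_mul_le _ _ _).trans ((Nat.add_le_add
    ((degreeOf_mul_le _ _ _).trans (Nat.add_le_add (h 0 _) (h 1 _))) (h 2 _)).trans ?_)
  fin_cases j <;> simp

lemma degreeOf_poly (j : Fin 3) : ∀ p : E, degreeOf j (poly p) ≤ deg p j
  | .k z => by
      rw [poly, hom, ← map_intCast (C : ℤ →+* MvPolynomial (Fin 3) ℤ) z, degreeOf_C]
      exact Nat.zero_le _
  | .x i => by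
      rw [poly, hom, degreeOf_X, deg]
      split_ifs <;> simp_all
  | .bar i => by
      rw [poly, hom, ← map_one (C : ℤ →+* MvPolynomial (Fin 3) ℤ), degreeOf_C]
      exact Nat.zero_le _
  | .neg p => by
      rw [poly, hom, degreeOf_neg]
      exact degreeOf_poly j p
  | .add p q => by
      refine (degreeOf_add_le _ _ _).trans (max_le ?_ ?_)
      · refine (degreeOf_mul_le _ _ _).trans
          ((Nat.add_le_add (degreeOf_poly j p) (degreeOf_pad j _ _)).trans ?_)
        simp only [deg]
        omega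
      · refine (degreeOf_mul_le _ _ _).trans
          ((Nat.add_le_add (degreeOf_poly j q) (degreeOf_pad j _ _)).trans ?_)
        simp only [deg]
        omega
  | .mul p q => (degreeOf_mul_le _ _ _).trans (Nat.add_le_add (degreeOf_poly j p) (degreeOf_poly j q))
  | .pow p n => (degreeOf_pow_le _ _ _).trans (Nat.mul_le_mul_left n (degreeOf_poly j p))

/-! ## The check -/

/-- All digits below half of the base, from the lowest. -/
def lowDigits (B half : ℤ) : ℕ → ℤ → Bool
  | 0, _ => true
  | n + 1, z => decide (z % B < half) && lowDigits B half n (z / B)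

lemma lowDigits_sound {B half : ℤ} (hB : B = 2 * half) : ∀ (n : ℕ) (z : ℤ) (f : ℕ → ℤ),
    (∀ i < n, |f i| < half) → z = ∑ i ∈ Finset.range n, f i * B ^ i →
    lowDigits B half n z = true → ∀ i < n, 0 ≤ f i
  | 0, _, _, _, _, _ => fun i hi => absurd hi (Nat.not_lt_zero i)
  | n + 1, z, f, hf, hz, hc => by
      rw [lowDigits, Bool.and_eq_true, decide_eq_true_eq] at hc
      obtain ⟨hc0, hc⟩ := hc
      have h0 := abs_lt.1 (hf 0 n.succ_pos)
      have hB0 : 0 < B := by linarith [abs_nonneg (f 0), hf 0 n.succ_pos]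
      obtain ⟨S, hS⟩ : ∃ S, S = ∑ i ∈ Finset.range n, f (i + 1) * B ^ i := ⟨_, rfl⟩
      have hzS : z = f 0 + S * B := by
        rw [hz, Finset.sum_range_succ', pow_zero, mul_one, add_comm, hS, Finset.sum_mul]
        exact congrArg _ (Finset.sum_congr rfl fun i _ => by ring)
      have hf0 : 0 ≤ f 0 := by
        by_contra h
        have hr : z % B = f 0 + B := by
          rw [hzS, Int.add_mul_emod_self_right, ← Int.add_emod_right,
            Int.emod_eq_of_lt (by linarith) (by linarith [not_le.1 h])]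
        linarith
      have hdiv : z / B = S := by
        rw [hzS, Int.add_mul_ediv_right _ _ hB0.ne',
          Int.ediv_eq_zero_of_lt hf0 (by linarith), zero_add]
      have ih := lowDigits_sound hB n (z / B) (fun i => f (i + 1))
        (fun i hi => hf _ (Nat.succ_lt_succ hi)) (hdiv.trans hS) hc
      intro i hi
      rcases i with _ | i
      · exact hf0
      · exact ih i (Nat.lt_of_succ_lt_succ hi)

/-- The bits of one digit. -/
def bits (p : E) : ℕ := Nat.log2 (bnd p) + 2

/-- The exponents of the base at the three variables. -/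
def pts (p : E) : Fin 3 → ℕ := ![1, deg p 0 + 1, (deg p 0 + 1) * (deg p 1 + 1)]

/-- All coefficients of the homogenised form are nonnegative. -/
def check (p : E) : Bool :=
  lowDigits ((2 ^ bits p : ℕ) : ℤ) ((2 ^ (bits p - 1) : ℕ) : ℤ)
    ((deg p 0 + 1) * (deg p 1 + 1) * (deg p 2 + 1))
    (hom (fun i => ((2 ^ (bits p * pts p i) : ℕ) : ℤ)) (fun _ => 1) p)

/-- The index of an exponent. -/
noncomputable def unidx (a b i : ℕ) : Fin 3 →₀ ℕ :=
  Finsupp.equivFunOnFinite.symm ![i % a, i / a % b, i / (a * b)]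

lemma coeff_nonneg {p : E} (h : check p = true) (m : Fin 3 →₀ ℕ) : 0 ≤ coeff m (poly p) := by
  classical
  obtain ⟨a, ha⟩ : ∃ a, a = deg p 0 + 1 := ⟨_, rfl⟩
  obtain ⟨b, hb⟩ : ∃ b, b = deg p 1 + 1 := ⟨_, rfl⟩
  obtain ⟨c, hc⟩ : ∃ c, c = deg p 2 + 1 := ⟨_, rfl⟩
  by_cases hm : m ∈ (poly p).support
  swap
  · simp [notMem_support_iff.1 hm]
  have hbox : ∀ m ∈ (poly p).support, m 0 < a ∧ m 1 < b ∧ m 2 < c := fun m hm => by
    have hj : ∀ j, m j ≤ deg p j := fun j =>
      (monomial_le_degreeOf j hm).trans (degreeOf_poly j p)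
    have := hj 0; have := hj 1; have := hj 2
    omega
  have hlt : ∀ m ∈ (poly p).support, m 0 + a * (m 1 + b * m 2) < a * b * c := fun m hm => by
    obtain ⟨h0, h1, h2⟩ := hbox m hm
    calc m 0 + a * (m 1 + b * m 2) < a * (m 1 + b * m 2 + 1) := by rw [Nat.mul_add a _ 1]; omega
      _ ≤ a * (b * c) := Nat.mul_le_mul_left a (by
          calc m 1 + b * m 2 + 1 ≤ b * (m 2 + 1) := by rw [Nat.mul_add b]; omega
            _ ≤ b * c := Nat.mul_le_mul_left b h2)
      _ = _ := (mul_assoc a b c).symm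
  have hun : ∀ m ∈ (poly p).support, unidx a b (m 0 + a * (m 1 + b * m 2)) = m := fun m hm => by
    obtain ⟨h0, h1, -⟩ := hbox m hm
    ext j
    simp only [unidx, Finsupp.equivFunOnFinite_symm_apply_apply]
    have ha0 : 0 < a := by omega
    have hb0 : 0 < b := by omega
    fin_cases j
    · simp [Nat.add_mul_mod_self_left, Nat.mod_eq_of_lt h0]
    · simp [Nat.add_mul_div_left _ _ ha0, Nat.div_eq_of_lt h0, Nat.mod_eq_of_lt h1]
    · simp [← Nat.div_div_eq_div_mul, Nat.add_mul_div_left _ _ ha0, Nat.div_eq_of_lt h0,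
        Nat.add_mul_div_left _ _ hb0, Nat.div_eq_of_lt h1]
  have hidx : ∀ i < a * b * c, (unidx a b i) 0 + a * ((unidx a b i) 1 + b * (unidx a b i) 2) = i := by
    intro i _
    simp [unidx, ← Nat.div_div_eq_div_mul, Nat.mod_add_div]
  obtain ⟨B, hBdef⟩ : ∃ B : ℤ, B = ((2 ^ bits p : ℕ) : ℤ) := ⟨_, rfl⟩
  have hval : hom (fun i => ((2 ^ (bits p * pts p i) : ℕ) : ℤ)) (fun _ => 1) p =
      ∑ i ∈ Finset.range (a * b * c), coeff (unidx a b i) (poly p) * B ^ i := by
    have e1 : hom (fun i => ((2 ^ (bits p * pts p i) : ℕ) : ℤ)) (fun _ => 1) p =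
        eval (fun i => B ^ pts p i) (poly p) := by
      rw [poly, map_hom (eval fun i => B ^ pts p i)]
      simp [hBdef, pow_mul]
    rw [e1, eval_eq']
    refine Finset.sum_bij_ne_zero (fun m _ _ => m 0 + a * (m 1 + b * m 2))
      (fun m hm _ => Finset.mem_range.2 (hlt m hm))
      (fun m hm _ m' hm' _ he => by rw [← hun m hm, ← hun m' hm', he])
      (fun i hi hne => ?_) (fun m hm _ => ?_)
    · have hs : unidx a b i ∈ (poly p).support := mem_support_iff.2 (left_ne_zero_of_mul hne)
      have hi' := hidx i (Finset.mem_range.1 hi)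
      refine ⟨unidx a b i, hs, ?_, hi'⟩
      intro h0
      apply hne
      rw [Fin.prod_univ_three, ← pow_mul, ← pow_mul, ← pow_mul, ← pow_add, ← pow_add] at h0
      simp only [pts, ← ha, ← hb, Matrix.cons_val_zero, Matrix.cons_val_one, Matrix.cons_val] at h0
      rw [← h0]
      congr 2
      conv_lhs => rw [← hi']
      ring
    · rw [hun m hm, Fin.prod_univ_three, ← pow_mul, ← pow_mul, ← pow_mul, ← pow_add, ← pow_add]
      simp only [pts, ← ha, ← hb, Matrix.cons_val_zero, Matrix.cons_val_one, Matrix.cons_val]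
      congr 2
      ring
  have hhalf : ∀ i, |coeff (unidx a b i) (poly p)| < ((2 ^ (bits p - 1) : ℕ) : ℤ) := fun i => by
    rw [← Int.natCast_natAbs]
    exact_mod_cast ((natAbs_coeff_le _ _).trans (nrm_poly p)).trans_lt
      (show bnd p < 2 ^ (bits p - 1) from by
        simpa [bits] using Nat.lt_log2_self (n := bnd p))
  have hB : ((2 ^ bits p : ℕ) : ℤ) = 2 * ((2 ^ (bits p - 1) : ℕ) : ℤ) := by
    rw [show bits p = bits p - 1 + 1 by simp [bits]]
    push_cast
    simp [pow_succ, mul_comm]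
  have := lowDigits_sound hB (a * b * c)
    (hom (fun i => ((2 ^ (bits p * pts p i) : ℕ) : ℤ)) (fun _ => 1) p)
    (fun i => coeff (unidx a b i) (poly p)) (fun i _ => hhalf i) (hBdef ▸ hval)
    (by rw [ha, hb, hc]; exact h) _ (hlt m hm)
  rwa [hun m hm] at this

/-- Nonnegativity on the cube. -/
theorem sem_nonneg {p : E} (h : check p = true) {v : Fin 3 → ℝ}
    (hv : ∀ i, v i ∈ Set.Icc (0 : ℝ) 1) : 0 ≤ sem v p := by
  have key : ∀ u : Fin 3 → ℝ, (∀ i, u i ∈ Set.Ico (0 : ℝ) 1) → 0 ≤ sem u p := by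
    intro u hu
    obtain ⟨r, hr⟩ : ∃ r : Fin 3 → ℝ, r = fun i => u i / (1 - u i) := ⟨_, rfl⟩
    have hl : ∀ i, 0 < 1 - u i := fun i => sub_pos.2 (hu i).2
    have e : sem u p = (1 - u 0) ^ deg p 0 * (1 - u 1) ^ deg p 1 * (1 - u 2) ^ deg p 2 *
        hom r (fun _ => 1) p := by
      rw [sem_eq_hom, ← hom_smul (fun i => 1 - u i) r (fun _ => 1) p]
      congr 1
      · funext i
        rw [hr]
        field_simp [(hl i).ne']
      · funext i
        simp
    have e2 : hom r (fun _ => 1) p = eval₂ (Int.castRingHom ℝ) r (poly p) := by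
      have := map_hom (eval₂Hom (Int.castRingHom ℝ) r) X (fun _ => 1) p
      simpa [poly] using this.symm
    rw [e, e2, eval₂_eq']
    refine mul_nonneg (by have := hl 0; have := hl 1; have := hl 2; positivity)
      (Finset.sum_nonneg fun m _ => mul_nonneg ?_ (Finset.prod_nonneg fun i _ => pow_nonneg ?_ _))
    · simpa using coeff_nonneg h m
    · rw [hr]
      exact div_nonneg (hu i).1 (hl i).le
  have hc : Continuous fun u : Fin 3 → ℝ => sem u p := by
    clear h hv key
    induction p with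
    | k z => exact continuous_const
    | x i => exact continuous_apply i
    | bar i => exact continuous_const.sub (continuous_apply i)
    | neg p ih => exact ih.neg
    | add p q ihp ihq => exact ihp.add ihq
    | mul p q ihp ihq => exact ihp.mul ihq
    | pow p n ih => exact ih.pow n
  have hmem : v ∈ closure (Set.univ.pi fun _ : Fin 3 => Set.Ico (0 : ℝ) 1) := by
    rw [closure_pi_set]
    exact fun i _ => by rw [closure_Ico zero_ne_one]; exact hv i
  exact closure_minimal
    (fun u (hu : u ∈ Set.univ.pi fun _ : Fin 3 => Set.Ico (0 : ℝ) 1) =>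
      (key u fun i => hu i trivial : u ∈ {u : Fin 3 → ℝ | 0 ≤ sem u p}))
    (isClosed_le continuous_const hc) hmem

end E

end Vale.Agent.P219.Poly
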