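import Vale.Agent.P219.Relax.Poly.Bernstein

/-!
# Substitution of charts in a polynomial expression

In an expression the coordinate `x i` becomes `A i / m i` and all denominators are cleared, inside
the expressions. Nonnegativity of the result on the cube gives it on the image of the chart. Six
charts cover the unit square with a blow-up at `(0, 1)`; a second family covers `(1 + s) / 4 ≤ v`.
-/

namespace Vale.Agent.P219.Poly

open Set

namespace E

/-- The substitution `x i := A i / m i`, times `m i` to the degree in each coordinate. -/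
def subst (A : Fin 3 → E) (m : Fin 3 → ℤ) : E → E
  | .k z => .k z
  | .x i => A i
  | .bar i => .add (.k (m i)) (.neg (A i))
  | .neg p => .neg (subst A m p)
  | .add p q =>
      let D := deg (.add p q)
      .add (.mul (subst A m p)
          (.k (m 0 ^ (D 0 - deg p 0) * m 1 ^ (D 1 - deg p 1) * m 2 ^ (D 2 - deg p 2))))
        (.mul (subst A m q)
          (.k (m 0 ^ (D 0 - deg q 0) * m 1 ^ (D 1 - deg q 1) * m 2 ^ (D 2 - deg q 2))))
  | .mul p q => .mul (subst A m p) (subst A m q)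
  | .pow p n => .pow (subst A m p) n

variable {A : Fin 3 → E} {m : Fin 3 → ℤ}

/-- The substitution is the homogenised form at `A` and its complement in `m`. -/
theorem sem_subst (v : Fin 3 → ℝ) : ∀ p : E, sem v (subst A m p) =
    hom (fun i => sem v (A i)) (fun i => (m i : ℝ) - sem v (A i)) p
  | .k z => rfl
  | .x i => rfl
  | .bar i => by simp [subst, sem, hom, sub_eq_add_neg]
  | .neg p => by rw [subst, sem, hom, sem_subst v p]
  | .add p q => by
      simp only [subst, sem, hom, sem_subst v p, sem_subst v q, pad, add_sub_cancel, Int.cast_mul,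
        Int.cast_pow]
  | .mul p q => by rw [subst, sem, hom, sem_subst v p, sem_subst v q]
  | .pow p n => by rw [subst, sem, hom, sem_subst v p]

/-- A sound test of nonnegativity on the cube. -/
def Sound (chk : E → Bool) : Prop :=
  ∀ p, chk p = true → ∀ v : Fin 3 → ℝ, (∀ i, v i ∈ Icc (0 : ℝ) 1) → 0 ≤ sem v p

theorem sound_check : Sound check := fun _ h _ hv => sem_nonneg h hv

/-- Nonnegativity on the image of a chart. -/
theorem nonneg_of_subst {chk : E → Bool} (hc : Sound chk) {p : E}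
    (h : chk (subst A m p) = true) (hm : ∀ i, 0 < m i) {v u : Fin 3 → ℝ}
    (hv : ∀ i, v i ∈ Icc (0 : ℝ) 1) (hu : ∀ i, sem v (A i) = (m i : ℝ) * u i) :
    0 ≤ sem u p := by
  have h0 := hc _ h v hv
  rw [sem_subst, show (fun i => (m i : ℝ) - sem v (A i)) = fun i => (m i : ℝ) * (1 - u i) from
    funext fun i => by rw [hu i]; ring, show (fun i => sem v (A i)) = fun i => (m i : ℝ) * u i from
    funext hu, hom_smul (fun i => (m i : ℝ)) u (fun i => 1 - u i) p, ← sem_eq_hom] at h0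
  have hp : ∀ i n, (0 : ℝ) < (m i : ℝ) ^ n := fun i n => pow_pos (by exact_mod_cast hm i) n
  exact nonneg_of_mul_nonneg_right h0 (mul_pos (mul_pos (hp 0 _) (hp 1 _)) (hp 2 _))

/-- A chart with values in the plane. -/
structure Map where
  /-- The numerator of the first coordinate. -/
  A₀ : E
  /-- The numerator of the second coordinate. -/
  A₁ : E
  /-- The denominator of the first coordinate. -/
  m₀ : ℤ
  /-- The denominator of the second coordinate. -/
  m₁ : ℤ

/-- An expression in two variables in a chart. -/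
def Map.app (c : Map) (p : E) : E := subst ![c.A₀, c.A₁, .k 0] ![c.m₀, c.m₁, 1] p

theorem Map.nonneg {c : Map} {chk : E → Bool} (hc : Sound chk) {p : E}
    (h : chk (c.app p) = true) (h₀ : 0 < c.m₀) (h₁ : 0 < c.m₁) {r a s v : ℝ}
    (hr : r ∈ Icc (0 : ℝ) 1) (ha : a ∈ Icc (0 : ℝ) 1)
    (hs : sem ![r, a, 0] c.A₀ = c.m₀ * s) (hv : sem ![r, a, 0] c.A₁ = c.m₁ * v) :
    0 ≤ sem ![s, v, 0] p := by
  refine nonneg_of_subst hc h (fun i => by fin_cases i <;> simp [h₀, h₁]) (v := ![r, a, 0])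
    (fun i => by fin_cases i <;> simp [hr.1, hr.2, ha.1, ha.2]) fun i => ?_
  fin_cases i
  · simpa using hs
  · simpa using hv
  · simp [sem]

/-- `z + c * p`. -/
def lin (z c : ℤ) (p : E) : E := .add (.k z) (.mul (.k c) p)

/-- `s = (1 + 3 r) / 4`, `v = a`. -/
def cD1 : Map := ⟨lin 1 3 (.x 0), .x 1, 4, 1⟩
/-- `s = r / 4`, `v = 3 a / 4`. -/
def cD2 : Map := ⟨.x 0, .mul (.k 3) (.x 1), 4, 4⟩
/-- `s = r a / 4`, `v = (4 - r) / 4`. -/
def cCd : Map := ⟨.mul (.x 0) (.x 1), lin 4 (-1) (.x 0), 4, 4⟩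
/-- `s = r / 4`, `v = (8 - r a) / 8`. -/
def cCa : Map := ⟨.x 0, lin 8 (-1) (.mul (.x 0) (.x 1)), 4, 8⟩
/-- `s = r / 4`, `v = (16 - r (2 + a)) / 16`. -/
def cCb : Map := ⟨.x 0, lin 16 (-1) (.mul (.x 0) (lin 2 1 (.x 1))), 4, 16⟩
/-- `s = r / 4`, `v = (16 - r (3 + a)) / 16`. -/
def cCc : Map := ⟨.x 0, lin 16 (-1) (.mul (.x 0) (lin 3 1 (.x 1))), 4, 16⟩
/-- `s = r`, `v = ((1 + r) + (3 - r) a) / 4`. -/
def cM : Map := ⟨.x 0, .add (lin 1 1 (.x 0)) (.mul (lin 3 (-1) (.x 0)) (.x 1)), 1, 4⟩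
/-- `s = (1 + 3 r) / 4`, `v = ((5 + 3 r) + (11 - 3 r) a) / 16`. -/
def cM1 : Map :=
  ⟨lin 1 3 (.x 0), .add (lin 5 3 (.x 0)) (.mul (lin 11 (-3) (.x 0)) (.x 1)), 4, 16⟩
/-- `s = r / 4`, `v = ((4 + r) + (8 - r) a) / 16`. -/
def cM2 : Map := ⟨.x 0, .add (lin 4 1 (.x 0)) (.mul (lin 8 (-1) (.x 0)) (.x 1)), 4, 16⟩

/-- The four charts of the corner `s ≤ 1 / 4`, `3 / 4 ≤ v`. -/
def cornerCheck (chk : E → Bool) (p : E) : Bool :=
  chk (cCa.app p) && chk (cCb.app p) && chk (cCc.app p) && chk (cCd.app p)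

/-- The six charts of the square. -/
def squareCheck (chk : E → Bool) (p : E) : Bool :=
  chk (cD1.app p) && chk (cD2.app p) && cornerCheck chk p

/-- The six charts of `(1 + s) / 4 ≤ v`. -/
def midCheck (chk : E → Bool) (p : E) : Bool :=
  chk (cM1.app p) && chk (cM2.app p) && cornerCheck chk p

variable {chk : E → Bool} {p : E} {s v : ℝ}

theorem corner_nonneg (hc : Sound chk) (h : cornerCheck chk p = true) (hs : s ∈ Icc (0 : ℝ) (1 / 4))
    (hv : v ∈ Icc (3 / 4 : ℝ) 1) : 0 ≤ sem ![s, v, 0] p := by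
  simp only [cornerCheck, Bool.and_eq_true] at h
  obtain ⟨⟨⟨ha, hb⟩, hc'⟩, hd⟩ := h
  obtain ⟨hs0, hs1⟩ := hs
  obtain ⟨hv0, hv1⟩ := hv
  rcases le_or_gt s (1 - v) with h1 | h1
  · rcases eq_or_lt_of_le (sub_nonneg.2 hv1) with hu | hu
    · exact cCd.nonneg hc hd (by decide) (by decide) (r := 0) (a := 0) (by simp) (by simp)
        (by simp [cCd, sem]; linarith) (by simp [cCd, lin, sem]; linarith)
    · refine cCd.nonneg hc hd (by decide) (by decide) (r := 4 * (1 - v)) (a := s / (1 - v))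
        ⟨by linarith, by linarith⟩ ⟨div_nonneg hs0 hu.le, (div_le_one hu).2 h1⟩ ?_ ?_
      · simp [cCd, sem, mul_assoc, mul_div_cancel₀ _ hu.ne']
      · simp [cCd, lin, sem]; ring
  · have hsp : 0 < s := by linarith
    obtain ⟨l, hl, hl0, hl1⟩ : ∃ l, 1 - v = s * l ∧ 0 ≤ l ∧ l ≤ 1 :=
      ⟨(1 - v) / s, (mul_div_cancel₀ _ hsp.ne').symm, div_nonneg (by linarith) hs0,
        (div_le_one hsp).2 h1.le⟩
    have hr : 4 * s ∈ Icc (0 : ℝ) 1 := ⟨by linarith, by linarith⟩
    have hv' : v = 1 - s * l := by linarith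
    subst hv'
    rcases le_or_gt l (1 / 2) with h2 | h2
    · exact cCa.nonneg hc ha (by decide) (by decide) (a := 2 * l) hr
        ⟨by linarith, by linarith⟩ (by simp [cCa, sem]) (by simp [cCa, lin, sem]; ring)
    rcases le_or_gt l (3 / 4) with h3 | h3
    · exact cCb.nonneg hc hb (by decide) (by decide) (a := 4 * l - 2) hr
        ⟨by linarith, by linarith⟩ (by simp [cCb, sem]) (by simp [cCb, lin, sem]; ring)
    · exact cCc.nonneg hc hc' (by decide) (by decide) (a := 4 * l - 3) hr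
        ⟨by linarith, by linarith⟩ (by simp [cCc, sem]) (by simp [cCc, lin, sem]; ring)

/-- Six checks give nonnegativity on the square. -/
theorem square_nonneg (hc : Sound chk) (h : squareCheck chk p = true)
    (hs : s ∈ Icc (0 : ℝ) 1) (hv : v ∈ Icc (0 : ℝ) 1) : 0 ≤ sem ![s, v, 0] p := by
  simp only [squareCheck, Bool.and_eq_true] at h
  obtain ⟨⟨h1, h2⟩, hk⟩ := h
  rcases le_or_gt (1 / 4) s with h' | h'
  · exact cD1.nonneg hc h1 (by decide) (by decide) (r := (4 * s - 1) / 3) (a := v)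
      ⟨by linarith, by linarith [hs.2]⟩ hv (by simp [cD1, lin, sem]; ring) (by simp [cD1, sem])
  rcases le_or_gt v (3 / 4) with h'' | h''
  · exact cD2.nonneg hc h2 (by decide) (by decide) (r := 4 * s) (a := 4 * v / 3)
      ⟨by linarith [hs.1], by linarith⟩ ⟨by linarith [hv.1], by linarith⟩ (by simp [cD2, sem])
      (by simp [cD2, sem]; ring)
  · exact corner_nonneg hc hk ⟨hs.1, h'.le⟩ ⟨h''.le, hv.2⟩

/-- One check gives nonnegativity where `(1 + s) / 4 ≤ v`. -/
theorem mid_nonneg_one (hc : Sound chk) (h : chk (cM.app p) = true) (hs : s ∈ Icc (0 : ℝ) 1)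
    (hv : v ∈ Icc ((1 + s) / 4) 1) : 0 ≤ sem ![s, v, 0] p := by
  have hd : (0 : ℝ) < 3 - s := by linarith [hs.2]
  refine cM.nonneg hc h (by decide) (by decide) (a := (4 * v - 1 - s) / (3 - s)) hs
    ⟨div_nonneg (by linarith [hv.1]) hd.le, (div_le_one hd).2 (by linarith [hv.2])⟩
    (by simp [cM, sem]) ?_
  simp [cM, lin, sem, ← sub_eq_add_neg, mul_div_cancel₀ _ hd.ne']

/-- Six checks give nonnegativity where `(1 + s) / 4 ≤ v`. -/
theorem mid_nonneg (hc : Sound chk) (h : midCheck chk p = true) (hs : s ∈ Icc (0 : ℝ) 1)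
    (hv : v ∈ Icc ((1 + s) / 4) 1) : 0 ≤ sem ![s, v, 0] p := by
  simp only [midCheck, Bool.and_eq_true] at h
  obtain ⟨⟨h1, h2⟩, hk⟩ := h
  rcases le_or_gt (1 / 4) s with h' | h'
  · have hd : (0 : ℝ) < 11 - (4 * s - 1) := by linarith [hs.2]
    refine cM1.nonneg hc h1 (by decide) (by decide) (r := (4 * s - 1) / 3)
      (a := (16 * v - 4 - 4 * s) / (11 - (4 * s - 1)))
      ⟨by linarith, by linarith [hs.2]⟩
      ⟨div_nonneg (by linarith [hv.1]) hd.le, (div_le_one hd).2 (by linarith [hv.2])⟩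
      (by simp [cM1, lin, sem]; ring) ?_
    simp [cM1, lin, sem]
    field_simp
    ring
  rcases le_or_gt v (3 / 4) with h'' | h''
  · have hd : (0 : ℝ) < 8 - 4 * s := by linarith
    refine cM2.nonneg hc h2 (by decide) (by decide) (r := 4 * s)
      (a := (16 * v - 4 - 4 * s) / (8 - 4 * s)) ⟨by linarith [hs.1], by linarith⟩
      ⟨div_nonneg (by linarith [hv.1]) hd.le, (div_le_one hd).2 (by linarith)⟩
      (by simp [cM2, sem]) ?_
    simp [cM2, lin, sem, ← sub_eq_add_neg, mul_div_cancel₀ _ hd.ne']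
  · exact corner_nonneg hc hk ⟨hs.1, h'.le⟩ ⟨h''.le, hv.2⟩

end E

end Vale.Agent.P219.Poly
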