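import Vale.Agent.P219.Relax.Poly.FastCheck

/-!
# Signs of functions on the square from the kernel check

A positive multiple of the function is the meaning of an integer expression.
-/

noncomputable section

open Set

namespace Vale.Agent.P219.Poly.E

/-- A function on the square a positive multiple of which passes the check is nonnegative. -/
theorem nonneg_of_scaled {p : E} {K : ℕ} {a b x : ℝ} (hc : check2 p = true)
    (ha : a ∈ Icc (0 : ℝ) 1) (hb : b ∈ Icc (0 : ℝ) 1) (hK : 0 < K)
    (h : (K : ℝ) * x = sem ![a, b, 0] p) : 0 ≤ x := by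
  have h0 : 0 ≤ sem ![a, b, 0] p := sem_nonneg2 hc fun i => by
    fin_cases i <;> simp [ha.1, ha.2, hb.1, hb.2]
  rw [← h] at h0
  exact nonneg_of_mul_nonneg_right h0 (by exact_mod_cast hK)

end Vale.Agent.P219.Poly.E
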